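import Mathlib.MeasureTheory.Function.L2Space
import Mathlib.Analysis.InnerProductSpace.MeanErgodic
import Mathlib.Dynamics.Ergodic.Function
import Mathlib.MeasureTheory.Function.LpSpace.Indicator
import Mathlib.MeasureTheory.Measure.Prod
import Mathlib.Algebra.Order.Chebyshev
import Mathlib.Tactic

open MeasureTheory Set Filter Topology

namespace Vale.Agent.P099

section Cesaro

variable {X : Type*} [MeasurableSpace X] {μ : Measure X} [IsProbabilityMeasure μ]

/-- the Koopman operator -/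
noncomputable def koop {f : X → X} (hf : MeasurePreserving f μ μ) :
    Lp ℝ 2 μ →L[ℝ] Lp ℝ 2 μ :=
  (Lp.compMeasurePreservingₗᵢ ℝ f hf).toContinuousLinearMap

lemma koop_apply {f : X → X} (hf : MeasurePreserving f μ μ) (g : Lp ℝ 2 μ) :
    koop hf g = Lp.compMeasurePreserving f hf g := rfl

lemma koop_iter {f : X → X} (hf : MeasurePreserving f μ μ) {A : Set X} (hA : MeasurableSet A)
    (n : ℕ) : (koop hf)^[n] (indicatorConstLp 2 hA (measure_ne_top μ A) (1 : ℝ)) =
      indicatorConstLp 2 ((hf.iterate n).measurable hA) (measure_ne_top μ _) (1 : ℝ) := by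
  induction n with
  | zero => rfl
  | succ n ih =>
    rw [Function.iterate_succ_apply', ih, koop_apply, Lp.indicatorConstLp_compMeasurePreserving]
    rfl

/-- Ergodicity gives mixing in the mean. -/
theorem cesaro {f : X → X} (hf : Ergodic f μ) {A B : Set X} (hA : MeasurableSet A)
    (hB : MeasurableSet B) :
    Tendsto (fun N : ℕ => (N : ℝ)⁻¹ * ∑ n ∈ Finset.range N, μ.real (f^[n] ⁻¹' A ∩ B)) atTop
      (𝓝 (μ.real A * μ.real B)) := by
  have hmp : MeasurePreserving f μ μ := hf.toMeasurePreserving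
  set a : Lp ℝ 2 μ := indicatorConstLp 2 hA (measure_ne_top μ A) (1 : ℝ) with ha
  have hn : ‖koop hmp‖ ≤ 1 := LinearIsometry.norm_toContinuousLinearMap_le _
  have ht := (koop hmp).tendsto_birkhoffAverage_orthogonalProjection hn a
  set g : Lp ℝ 2 μ := (((koop hmp).eqLocus (1 : Lp ℝ 2 μ →L[ℝ] Lp ℝ 2 μ)).orthogonalProjectionOnto a :
    Lp ℝ 2 μ) with hg
  have hgfix : koop hmp g = g := by
    have h1 := (((koop hmp).eqLocus
      (1 : Lp ℝ 2 μ →L[ℝ] Lp ℝ 2 μ)).orthogonalProjectionOnto a).2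
    exact h1
  obtain ⟨c, hc⟩ : ∃ c : ℝ, g =ᵐ[μ] fun _ => c := by
    have h1 : (g : X → ℝ) ∘ f =ᵐ[μ] g := by
      have h2 := Lp.coeFn_compMeasurePreserving g hmp
      rw [← koop_apply, hgfix] at h2
      exact h2.symm
    exact hf.ae_eq_const_of_ae_eq_comp_ae (Lp.aestronglyMeasurable g) h1
  -- testing against a set
  have key : ∀ {C : Set X} (hC : MeasurableSet C),
      Tendsto (fun N : ℕ => (N : ℝ)⁻¹ * ∑ n ∈ Finset.range N, μ.real (f^[n] ⁻¹' A ∩ C)) atTop
        (𝓝 (c * μ.real C)) := by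
    intro C hC
    set b : Lp ℝ 2 μ := indicatorConstLp 2 hC (measure_ne_top μ C) (1 : ℝ) with hb
    have h1 : Tendsto (fun N : ℕ => inner ℝ b (birkhoffAverage ℝ (koop hmp) _root_.id N a)) atTop
        (𝓝 (inner ℝ b g)) := tendsto_const_nhds.inner ht
    have h2 : inner ℝ b g = c * μ.real C := by
      rw [hb, L2.inner_indicatorConstLp_one, integral_congr_ae (ae_restrict_of_ae hc)]
      rw [integral_const, smul_eq_mul, mul_comm]
      simp [Measure.real, Measure.restrict_apply]
    have h3 : ∀ N : ℕ, inner ℝ b (birkhoffAverage ℝ (koop hmp) _root_.id N a) =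
        (N : ℝ)⁻¹ * ∑ n ∈ Finset.range N, μ.real (f^[n] ⁻¹' A ∩ C) := by
      intro N
      rw [birkhoffAverage, birkhoffSum, inner_smul_right, inner_sum]
      congr 1
      refine Finset.sum_congr rfl fun n _ => ?_
      rw [id_eq, ha, koop_iter hmp hA n, hb, L2.inner_indicatorConstLp_one]
      rw [integral_congr_ae (ae_restrict_of_ae indicatorConstLp_coeFn)]
      rw [integral_indicator ((hmp.iterate n).measurable hA), Measure.restrict_restrict
        ((hmp.iterate n).measurable hA)]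
      simp [Measure.real, Measure.restrict_apply]
    rw [h2] at h1
    simpa only [h3] using h1
  have hcA : c = μ.real A := by
    have h1 := key MeasurableSet.univ
    have h2 : Tendsto (fun N : ℕ => (N : ℝ)⁻¹ * ∑ n ∈ Finset.range N, μ.real (f^[n] ⁻¹' A ∩ univ))
        atTop (𝓝 (μ.real A)) := by
      refine tendsto_const_nhds.congr' ?_
      filter_upwards [eventually_gt_atTop 0] with N hN
      have h3 : ∀ n ∈ Finset.range N, μ.real (f^[n] ⁻¹' A ∩ univ) = μ.real A := by
        intro n _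
        rw [inter_univ, Measure.real, (hmp.iterate n).measure_preimage hA.nullMeasurableSet]
        rfl
      rw [Finset.sum_congr rfl h3, Finset.sum_const, Finset.card_range, nsmul_eq_mul, ← mul_assoc,
        inv_mul_cancel₀ (by exact_mod_cast hN.ne'), one_mul]
    have h3 := tendsto_nhds_unique h1 h2
    simpa using h3
  rw [← hcA]
  exact key hB

/-- Ergodicity of the square gives strong mixing in the mean. -/
theorem cesaro_abs {f : X → X} (hf : Ergodic f μ)
    (hff : Ergodic (fun z : X × X => (f z.1, f z.2)) (μ.prod μ)) {A B : Set X}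
    (hA : MeasurableSet A) (hB : MeasurableSet B) :
    Tendsto (fun N : ℕ => (N : ℝ)⁻¹ * ∑ n ∈ Finset.range N,
      |μ.real (f^[n] ⁻¹' A ∩ B) - μ.real A * μ.real B|) atTop (𝓝 0) := by
  have h1 := cesaro hf hA hB
  have h2 := cesaro hff (hA.prod hA) (hB.prod hB)
  have h3 : ∀ n : ℕ, (μ.prod μ).real ((fun z : X × X => (f z.1, f z.2))^[n] ⁻¹' (A ×ˢ A) ∩ B ×ˢ B) =
      μ.real (f^[n] ⁻¹' A ∩ B) ^ 2 := by
    intro n
    have e1 : (fun z : X × X => (f z.1, f z.2))^[n] = fun z => (f^[n] z.1, f^[n] z.2) := by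
      induction n with
      | zero => rfl
      | succ n ih =>
        funext z
        rw [Function.iterate_succ_apply', ih, Function.iterate_succ_apply',
          Function.iterate_succ_apply']
    have e2 : (fun z : X × X => (f z.1, f z.2))^[n] ⁻¹' (A ×ˢ A) ∩ B ×ˢ B =
        (f^[n] ⁻¹' A ∩ B) ×ˢ (f^[n] ⁻¹' A ∩ B) := by
      rw [e1]
      ext z
      simp only [mem_inter_iff, mem_preimage, mem_prod]
      tauto
    rw [e2, Measure.real, Measure.prod_prod, ENNReal.toReal_mul, pow_two]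
    rfl
  have h4 : ∀ s : Set X, (μ.prod μ).real (s ×ˢ s) = μ.real s ^ 2 := by
    intro s
    rw [Measure.real, Measure.prod_prod, ENNReal.toReal_mul, pow_two]
    rfl
  simp only [h3, h4] at h2
  set a := μ.real A * μ.real B with ha
  set x : ℕ → ℝ := fun n => μ.real (f^[n] ⁻¹' A ∩ B) with hx
  have h5 : Tendsto (fun N : ℕ => (N : ℝ)⁻¹ * ∑ n ∈ Finset.range N, (x n - a) ^ 2) atTop (𝓝 0) := by
    have h6 : Tendsto (fun N : ℕ => (N : ℝ)⁻¹ * ∑ n ∈ Finset.range N, x n ^ 2 -
        2 * a * ((N : ℝ)⁻¹ * ∑ n ∈ Finset.range N, x n) + a ^ 2) atTop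
        (𝓝 (μ.real A ^ 2 * μ.real B ^ 2 - 2 * a * a + a ^ 2)) :=
      (h2.sub (h1.const_mul (2 * a))).add_const _
    have h7 : μ.real A ^ 2 * μ.real B ^ 2 - 2 * a * a + a ^ 2 = 0 := by rw [ha]; ring
    rw [h7] at h6
    refine h6.congr' ?_
    filter_upwards [eventually_gt_atTop 0] with N hN
    have hN' : (N : ℝ) ≠ 0 := by exact_mod_cast hN.ne'
    have h8 : ∑ n ∈ Finset.range N, (x n - a) ^ 2 =
        ∑ n ∈ Finset.range N, x n ^ 2 - 2 * a * ∑ n ∈ Finset.range N, x n + N * a ^ 2 := by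
      rw [Finset.mul_sum, ← Finset.sum_sub_distrib]
      have : (N : ℝ) * a ^ 2 = ∑ n ∈ Finset.range N, a ^ 2 := by
        rw [Finset.sum_const, Finset.card_range, nsmul_eq_mul]
      rw [this, ← Finset.sum_add_distrib]
      refine Finset.sum_congr rfl fun n _ => ?_
      ring
    rw [h8]
    field_simp
  -- Cauchy-Schwarz
  have h9 : Tendsto (fun N : ℕ => Real.sqrt ((N : ℝ)⁻¹ * ∑ n ∈ Finset.range N, (x n - a) ^ 2)) atTop
      (𝓝 0) := by
    have := h5.sqrt
    rwa [Real.sqrt_zero] at this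
  refine squeeze_zero (fun N => by positivity) (fun N => ?_) h9
  refine Real.le_sqrt_of_sq_le ?_
  have h10 := sq_sum_le_card_mul_sum_sq (s := Finset.range N) (f := fun n => |x n - a|)
  rw [Finset.card_range] at h10
  simp only [sq_abs] at h10
  rcases Nat.eq_zero_or_pos N with hN | hN
  · subst hN; simp
  · have hN' : (0 : ℝ) < N := by exact_mod_cast hN
    rw [mul_pow]
    calc ((N : ℝ)⁻¹) ^ 2 * (∑ n ∈ Finset.range N, |x n - a|) ^ 2
        ≤ ((N : ℝ)⁻¹) ^ 2 * (N * ∑ n ∈ Finset.range N, (x n - a) ^ 2) :=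
          mul_le_mul_of_nonneg_left h10 (by positivity)
      _ = (N : ℝ)⁻¹ * ∑ n ∈ Finset.range N, (x n - a) ^ 2 := by
          field_simp

end Cesaro

end Vale.Agent.P099
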