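import Vale.Agent.P099.H184.AbsSusp
import Vale.Agent.P099.H184.Cesaro

open MeasureTheory Set Filter Topology

namespace Vale.Agent.P099.H184Abs

lemma ae_iff_of_symmDiff {X : Type} [MeasurableSpace X] {m : Measure X} {A B : Set X}
    (h : m (symmDiff A B) = 0) : ∀ᵐ p ∂m, (p ∈ A ↔ p ∈ B) := by
  rw [measure_eq_zero_iff_ae_notMem] at h
  filter_upwards [h] with p hp
  rw [mem_symmDiff] at hp
  tauto

lemma symmDiff_of_ae_iff {X : Type} [MeasurableSpace X] {m : Measure X} {A B : Set X}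
    (h : ∀ᵐ p ∂m, (p ∈ A ↔ p ∈ B)) : m (symmDiff A B) = 0 := by
  rw [measure_eq_zero_iff_ae_notMem]
  filter_upwards [h] with p hp
  rw [mem_symmDiff]
  tauto

lemma _root_.Vale.Agent.P099.InvMap.aeIff {X : Type} [MeasurableSpace X] {m : Measure X}
    {S : X → X} {A : Set X} (h : InvMap m S A) : ∀ᵐ p ∂m, (S p ∈ A ↔ p ∈ A) :=
  ae_iff_of_symmDiff h.2

lemma invMap_of_ae {X : Type} [MeasurableSpace X] {m : Measure X} {S : X → X} {A : Set X}
    (hA : MeasurableSet A) (h : ∀ᵐ p ∂m, (S p ∈ A ↔ p ∈ A)) : InvMap m S A := by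
  refine ⟨hA, ?_⟩
  rw [measure_eq_zero_iff_ae_notMem]
  filter_upwards [h] with p hp
  rw [mem_symmDiff]
  simp only [mem_preimage]
  tauto

/-- For every measure preserving flow of a probability space, the sets invariant under the product
with `Φ` are, up to null sets, `univ × B`. -/
def RelErgodic {X : Type} [MeasurableSpace X] (μ : Measure X) (Φ : ℝ → X → X) : Prop :=
  ∀ (Ω : Type) [MeasurableSpace Ω] (m : Measure Ω) [IsProbabilityMeasure m] (Ψ : ℝ → Ω → Ω),
    Flow m Ψ → ∀ A : Set (X × Ω), MeasurableSet A →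
      (∀ t, (μ.prod m) (symmDiff ((fun z => (Φ t z.1, Ψ t z.2)) ⁻¹' A) A) = 0) →
      ∃ B : Set Ω, MeasurableSet B ∧ (μ.prod m) (symmDiff A (univ ×ˢ B)) = 0

variable {X : Type} [MeasurableSpace X] [MeasurableEq X] {μ : Measure X} [hprob : IsProbabilityMeasure μ]

/-- The relative theorem for time-`c` maps, `c > 0`, for the good version of the flow. -/
theorem rel_map_pos {Φ : ℝ → X → X} (hrel : RelErgodic μ Φ)
    (hΦ : Flow μ Φ) (c : ℝ) (hc : 0 < c) {Ω : Type} [MeasurableSpace Ω] {m : Measure Ω}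
    [IsProbabilityMeasure m] {S S' : Ω → Ω} (h : MeasurePreserving S m m)
    (h' : MeasurePreserving S' m m) (h1 : ∀ᵐ q ∂m, S' (S q) = q) (h2 : ∀ᵐ q ∂m, S (S' q) = q)
    {A : Set (X × Ω)} (hA : MeasurableSet A)
    (hinv : ∀ᵐ z ∂(μ.prod m), ((Φ c z.1, S z.2) ∈ A ↔ z ∈ A)) :
    ∃ B : Set Ω, MeasurableSet B ∧ ∀ᵐ z ∂(μ.prod m), (z ∈ A ↔ z.2 ∈ B) := by
  have hfc : Fact (0 < c) := ⟨hc⟩
  have hgood := ae_hgood h h' h1 h2
  have hgood' : ∀ᵐ z ∂(μ.prod m), Hgood S S' z.2 :=
    Measure.quasiMeasurePreserving_snd.ae hgood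
  -- the group law of the flow
  have hadd : ∀ s t : ℝ, ∀ᵐ z ∂(μ.prod m), Φ (s + t) z.1 = Φ s (Φ t z.1) := fun s t =>
    Measure.quasiMeasurePreserving_fst.ae (hΦ.add s t)
  -- invariance under all integer powers
  have hmp : ∀ k : ℤ, MeasurePreserving (fun z : X × Ω => (Φ (c * k) z.1, sz S S' k z.2))
      (μ.prod m) (μ.prod m) := fun k => (hΦ.mp (c * k)).prod (sz_mp h h' k)
  have hk : ∀ k : ℤ, ∀ᵐ z ∂(μ.prod m), ((Φ (c * k) z.1, sz S S' k z.2) ∈ A ↔ z ∈ A) := by
    have hstep : ∀ k : ℤ, ∀ᵐ z ∂(μ.prod m),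
        ((Φ (c * (k + 1 : ℤ)) z.1, sz S S' (k + 1) z.2) ∈ A ↔
          (Φ (c * k) z.1, sz S S' k z.2) ∈ A) := by
      intro k
      filter_upwards [(hmp k).quasiMeasurePreserving.ae hinv, hadd c (c * k), hgood'] with z g1 g2 g3
      have e1 : (c * ((k + 1 : ℤ) : ℝ)) = c + c * k := by push_cast; ring
      rw [e1, g2, g3.sz_succ]
      exact g1
    intro k
    induction k using Int.induction_on with
    | zero =>
      have h0 : ∀ᵐ z ∂(μ.prod m), Φ 0 z.1 = z.1 := Measure.quasiMeasurePreserving_fst.ae hΦ.zero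
      filter_upwards [h0] with z g
      have e1 : c * ((0 : ℤ) : ℝ) = 0 := by simp
      rw [e1, g, sz_zero]
    | succ n ih =>
      filter_upwards [ih, hstep n] with z g1 g2
      rw [g2, g1]
    | pred n ih =>
      filter_upwards [ih, hstep (-(n : ℤ) - 1)] with z g1 g2
      rw [sub_add_cancel] at g2
      rw [← g2, g1]
  have hkall : ∀ᵐ z ∂(μ.prod m), ∀ k : ℤ, ((Φ (c * k) z.1, sz S S' k z.2) ∈ A ↔ z ∈ A) :=
    ae_all_iff.2 hk
  -- the set on the suspension
  set A' : Set (X × (AddCircle c × Ω)) := {z | (Φ (-(rp c z.2.1)) z.1, z.2.2) ∈ A} with hA'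
  have mrp : Measurable (fun z : X × (AddCircle c × Ω) => rp c z.2.1) :=
    (measurable_rp c).comp (measurable_fst.comp measurable_snd)
  have mJ : Measurable (fun z : X × (AddCircle c × Ω) =>
      ((Φ (-(rp c z.2.1)) z.1, z.2.2) : X × Ω)) :=
    (hΦ.meas.comp (mrp.neg.prodMk measurable_fst)).prodMk (measurable_snd.comp measurable_snd)
  have mA' : MeasurableSet A' := mJ hA
  have hsm : IsProbabilityMeasure (sm c m) := by unfold sm; infer_instance
  -- transfer of almost everywhere statements along the shear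
  have htr : ∀ {P : X × Ω → Prop}, (∀ᵐ z ∂(μ.prod m), P z) →
      ∀ᵐ z ∂(μ.prod (sm c m)), P (Φ (-(rp c z.2.1)) z.1, z.2.2) := by
    intro P hP
    obtain ⟨G, hG, hGm, hGp⟩ := hP.exists_measurable_mem
    have hskew : MeasurePreserving (fun y : AddCircle c × (X × Ω) =>
        (y.1, ((Φ (-(rp c y.1)) y.2.1, y.2.2) : X × Ω)))
        ((AddCircle.haarAddCircle : Measure (AddCircle c)).prod (μ.prod m))
        ((AddCircle.haarAddCircle : Measure (AddCircle c)).prod (μ.prod m)) := by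
      refine MeasurePreserving.skew_product (f := fun q : AddCircle c => q)
        (g := fun q (y : X × Ω) => ((Φ (-(rp c q)) y.1, y.2) : X × Ω))
        (MeasurePreserving.id _) ?_ ?_
      · exact (hΦ.meas.comp (((measurable_rp c).comp measurable_fst).neg.prodMk
          (measurable_fst.comp measurable_snd))).prodMk (measurable_snd.comp measurable_snd)
      · exact ae_of_all _ fun q => ((hΦ.mp (-(rp c q))).prod (MeasurePreserving.id m)).map_eq
    have h3 : ∀ᵐ y ∂((AddCircle.haarAddCircle : Measure (AddCircle c)).prod (μ.prod m)),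
        ((Φ (-(rp c y.1)) y.2.1, y.2.2) : X × Ω) ∈ G :=
      hskew.quasiMeasurePreserving.ae
        (Measure.quasiMeasurePreserving_snd.ae (show ∀ᵐ z ∂(μ.prod m), z ∈ G from hG))
    -- reorder the factors
    have hre : MeasurePreserving (fun z : X × (AddCircle c × Ω) =>
        ((z.2.1, (z.1, z.2.2)) : AddCircle c × (X × Ω))) (μ.prod (sm c m))
        ((AddCircle.haarAddCircle : Measure (AddCircle c)).prod (μ.prod m)) := by
      have a1 := (measurePreserving_prodAssoc μ (AddCircle.haarAddCircle : Measure (AddCircle c))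
        m).symm
      have a2 : MeasurePreserving (Prod.map Prod.swap (id : Ω → Ω))
          ((μ.prod (AddCircle.haarAddCircle : Measure (AddCircle c))).prod m)
          (((AddCircle.haarAddCircle : Measure (AddCircle c)).prod μ).prod m) :=
        Measure.measurePreserving_swap.prod (MeasurePreserving.id m)
      have a3 := measurePreserving_prodAssoc (AddCircle.haarAddCircle : Measure (AddCircle c))
        μ m
      exact (a3.comp a2).comp a1
    filter_upwards [hre.quasiMeasurePreserving.ae h3] with z hz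
    exact hGp _ hz
  have hinvI : ∀ s, ∀ᵐ z ∂(μ.prod (sm c m)), ((Φ s z.1, susp c S S' s z.2) ∈ A' ↔ z ∈ A') := by
    intro s
    have g1 := htr hkall
    -- group law along the shear
    have g2 : ∀ᵐ z ∂(μ.prod (sm c m)),
        Φ (-(rp c (susp c S S' s z.2).1)) (Φ s z.1) =
          Φ (c * turns c z.2.1 s) (Φ (-(rp c z.2.1)) z.1) := by
      have hms : MeasurableSet {z : X × (AddCircle c × Ω) |
          Φ (-(rp c (susp c S S' s z.2).1)) (Φ s z.1) =
            Φ (c * turns c z.2.1 s) (Φ (-(rp c z.2.1)) z.1)} := by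
        have mq : Measurable (fun z : X × (AddCircle c × Ω) => z.2.1) :=
          measurable_fst.comp measurable_snd
        have m1 : Measurable (fun z : X × (AddCircle c × Ω) =>
            rp c (susp c S S' s z.2).1) := by
          have : Measurable (fun z : X × (AddCircle c × Ω) =>
              rp c (z.2.1 + (s : AddCircle c))) := (measurable_rp c).comp (mq.add_const _)
          exact this
        have mt : Measurable (fun z : X × (AddCircle c × Ω) =>
            ((turns c z.2.1 s : ℤ) : ℝ)) :=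
          (measurable_from_top (f := fun k : ℤ => (k : ℝ))).comp
            ((measurable_turns c).comp (mq.prodMk measurable_const))
        refine measurableSet_eq_fun ?_ ?_
        · exact hΦ.meas.comp (m1.neg.prodMk (hΦ.meas.comp (measurable_const.prodMk measurable_fst)))
        · exact hΦ.meas.comp ((mt.const_mul c).prodMk
            (hΦ.meas.comp (mrp.neg.prodMk measurable_fst)))
      have hswap : MeasurePreserving (Prod.swap : (AddCircle c × Ω) × X → _)
          ((sm c m).prod μ) (μ.prod (sm c m)) := Measure.measurePreserving_swap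
      have hswap' : MeasurePreserving (Prod.swap : X × (AddCircle c × Ω) → _)
          (μ.prod (sm c m)) ((sm c m).prod μ) := Measure.measurePreserving_swap
      have h4 : ∀ᵐ y ∂((sm c m).prod μ),
          Φ (-(rp c (susp c S S' s y.1).1)) (Φ s y.2) =
            Φ (c * turns c y.1.1 s) (Φ (-(rp c y.1.1)) y.2) := by
        refine (Measure.ae_prod_mem_iff_ae_ae_mem (hswap.measurable hms)).2 ?_
        refine ae_of_all _ fun q => ?_
        filter_upwards [hΦ.add (-(rp c (susp c S S' s q).1)) s,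
          hΦ.add (c * turns c q.1 s) (-(rp c q.1))] with p h5 h6
        show Φ (-(rp c (susp c S S' s q).1)) (Φ s p) = Φ (c * turns c q.1 s) (Φ (-(rp c q.1)) p)
        rw [← h5, ← h6]
        congr 1
        have e1 : rp c (susp c S S' s q).1 = rp c q.1 + s - c * turns c q.1 s := rp_add c q.1 s
        rw [e1]
        ring
      exact hswap'.quasiMeasurePreserving.ae h4
    filter_upwards [g1, g2] with z h5 h6
    show (Φ (-(rp c (susp c S S' s z.2).1)) (Φ s z.1), (susp c S S' s z.2).2) ∈ A ↔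
      (Φ (-(rp c z.2.1)) z.1, z.2.2) ∈ A
    rw [h6]
    exact h5 (turns c z.2.1 s)
  obtain ⟨B', mB', hB'⟩ := hrel _ _ _ (susp_pflow c h h' h1 h2) A' mA' fun s =>
    symmDiff_of_ae_iff (hinvI s)
  have hg := ae_iff_of_symmDiff hB'
  -- choose a good phase
  have hq : ∃ q : AddCircle c, ∀ᵐ y ∂(μ.prod m),
      ((Φ (-(rp c q)) y.1, y.2) ∈ A ↔ (q, y.2) ∈ B') := by
    have hre : MeasurePreserving (fun y : AddCircle c × (X × Ω) =>
        ((y.2.1, (y.1, y.2.2)) : X × (AddCircle c × Ω)))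
        ((AddCircle.haarAddCircle : Measure (AddCircle c)).prod (μ.prod m))
        (μ.prod (sm c m)) := by
      have a1 := (measurePreserving_prodAssoc (AddCircle.haarAddCircle : Measure (AddCircle c))
        μ m).symm
      have a2 : MeasurePreserving (Prod.map Prod.swap (id : Ω → Ω))
          (((AddCircle.haarAddCircle : Measure (AddCircle c)).prod μ).prod m)
          ((μ.prod (AddCircle.haarAddCircle : Measure (AddCircle c))).prod m) :=
        Measure.measurePreserving_swap.prod (MeasurePreserving.id m)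
      have a3 := measurePreserving_prodAssoc μ
        (AddCircle.haarAddCircle : Measure (AddCircle c)) m
      exact (a3.comp a2).comp a1
    have h3 := hre.quasiMeasurePreserving.ae hg
    have h4 := Measure.ae_ae_of_ae_prod h3
    obtain ⟨q, hq⟩ := h4.exists
    refine ⟨q, ?_⟩
    filter_upwards [hq] with y hy
    simpa [hA'] using hy
  obtain ⟨q, hq⟩ := hq
  have hback : MeasurePreserving (fun y : X × Ω => ((Φ (rp c q) y.1, y.2) : X × Ω))
      (μ.prod m) (μ.prod m) := (hΦ.mp (rp c q)).prod (MeasurePreserving.id m)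
  have h0 : ∀ᵐ z ∂(μ.prod m), Φ 0 z.1 = z.1 := Measure.quasiMeasurePreserving_fst.ae hΦ.zero
  refine ⟨{ω | (q, ω) ∈ B'}, ?_, ?_⟩
  · exact (measurable_const.prodMk measurable_id) mB'
  · filter_upwards [hback.quasiMeasurePreserving.ae hq, hadd (-(rp c q)) (rp c q), h0]
      with y g1 g2 g3
    rw [← g2, neg_add_cancel, g3] at g1
    exact g1

/-- The relative theorem for time-`t` maps, `t ≠ 0`. -/
theorem rel_map {Φ₀ Φ : ℝ → X → X} (hrel : RelErgodic μ Φ) (hΦ : Flow μ Φ)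
    (hae : ∀ t, ∀ᵐ p ∂μ, Φ₀ t p = Φ t p)
    {t : ℝ} (ht : t ≠ 0) {Ω : Type} [MeasurableSpace Ω] {m : Measure Ω}
    [IsProbabilityMeasure m] {S : Ω → Ω} (hS : IsAutomorphism m S)
    {A : Set (X × Ω)} (hA : InvMap (μ.prod m) (fun z => (Φ₀ t z.1, S z.2)) A) :
    ∃ B : Set Ω, InvMap m S B ∧ ∀ᵐ z ∂(μ.prod m), (z ∈ A ↔ z.2 ∈ B) := by
  obtain ⟨h, S', h', h1, h2⟩ := hS
  have hΦΨ : ∀ᵐ z ∂(μ.prod m), Φ₀ t z.1 = Φ t z.1 :=
    Measure.quasiMeasurePreserving_fst.ae (hae t)
  have hinv : ∀ᵐ z ∂(μ.prod m), ((Φ t z.1, S z.2) ∈ A ↔ z ∈ A) := by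
    filter_upwards [hA.aeIff, hΦΨ] with z g1 g2
    rw [← g2]
    exact g1
  have key : ∃ B : Set Ω, MeasurableSet B ∧ ∀ᵐ z ∂(μ.prod m), (z ∈ A ↔ z.2 ∈ B) := by
    rcases lt_or_gt_of_ne ht with hneg | hpos
    · refine rel_map_pos hrel hΦ (-t) (by linarith) h' h h2 h1 hA.1 ?_
      have hmp : MeasurePreserving (fun z : X × Ω => (Φ (-t) z.1, S' z.2))
          (μ.prod m) (μ.prod m) := (hΦ.mp (-t)).prod h'
      have g3 : ∀ᵐ z ∂(μ.prod m), Φ (t + -t) z.1 = Φ t (Φ (-t) z.1) :=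
        Measure.quasiMeasurePreserving_fst.ae (hΦ.add t (-t))
      have g4 : ∀ᵐ z ∂(μ.prod m), Φ 0 z.1 = z.1 :=
        Measure.quasiMeasurePreserving_fst.ae hΦ.zero
      have g5 : ∀ᵐ z ∂(μ.prod m), S (S' z.2) = z.2 :=
        Measure.quasiMeasurePreserving_snd.ae h2
      filter_upwards [hmp.quasiMeasurePreserving.ae hinv, g3, g4, g5] with z k1 k3 k4 k5
      rw [add_neg_cancel, k4] at k3
      rw [k5, ← k3] at k1
      exact k1.symm
    · exact rel_map_pos hrel hΦ t hpos h h' h1 h2 hA.1 hinv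
  obtain ⟨B, hB, hAB⟩ := key
  refine ⟨B, invMap_of_ae hB ?_, hAB⟩
  have hmp : MeasurePreserving (fun z : X × Ω => (Φ t z.1, S z.2))
      (μ.prod m) (μ.prod m) := (hΦ.mp t).prod h
  have h5 : ∀ᵐ z ∂(μ.prod m), (S z.2 ∈ B ↔ z.2 ∈ B) := by
    filter_upwards [hmp.quasiMeasurePreserving.ae hAB, hAB, hinv] with z k1 k2 k3
    rw [← k1, k3, k2]
  have h6 := Measure.ae_ae_of_ae_prod h5
  obtain ⟨p, hp⟩ := h6.exists
  exact hp

omit [MeasurableEq X] in
lemma zero_or_one {A : Set X} (hA : MeasurableSet A) {P : Prop} (h : ∀ᵐ x ∂μ, (x ∈ A ↔ P)) :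
    μ A = 0 ∨ μ A = 1 := by
  by_cases hP : P
  · right
    have h1 : ∀ᵐ x ∂μ, x ∈ A := by
      filter_upwards [h] with x hx
      exact hx.2 hP
    rwa [← prob_compl_eq_zero_iff hA]
  · left
    rw [measure_eq_zero_iff_ae_notMem]
    filter_upwards [h] with x hx hxA
    exact hP (hx.1 hxA)

omit [MeasurableEq X] in
lemma ergodic_of_zero_one {f : X → X} (hf : MeasurePreserving f μ μ)
    (h : ∀ A, InvMap μ f A → μ A = 0 ∨ μ A = 1) : Ergodic f μ := by
  refine ⟨hf, ⟨fun s hs hfs => ?_⟩⟩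
  have h1 := h s ⟨hs, by rw [hfs, symmDiff_self]; exact measure_empty⟩
  rw [Filter.eventuallyConst_set']
  rcases h1 with h1 | h1
  · left
    rw [ae_eq_empty]
    exact h1
  · right
    rw [← prob_compl_eq_zero_iff hs] at h1
    rwa [ae_eq_univ]

/-- Every time-`t` map, `t ≠ 0`, is ergodic. -/
lemma map_zero_one {Φ₀ Φ : ℝ → X → X} (hrel : RelErgodic μ Φ) (hΦ : Flow μ Φ)
    (hae : ∀ t, ∀ᵐ p ∂μ, Φ₀ t p = Φ t p) {t : ℝ} (ht : t ≠ 0) {A : Set X}
    (hA : InvMap μ (Φ₀ t) A) : μ A = 0 ∨ μ A = 1 := by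
  set m : Measure Unit := Measure.dirac () with hm
  have hS : IsAutomorphism m (id : Unit → Unit) :=
    ⟨MeasurePreserving.id _, id, MeasurePreserving.id _, ae_of_all _ fun _ => rfl,
      ae_of_all _ fun _ => rfl⟩
  obtain ⟨B, -, hB⟩ := rel_map hrel hΦ hae ht hS (A := Prod.fst ⁻¹' A)
    (invMap_of_ae (measurable_fst hA.1) (by
      have h1 : ∀ᵐ z ∂(μ.prod m), (Φ₀ t z.1 ∈ A ↔ z.1 ∈ A) :=
        Measure.quasiMeasurePreserving_fst.ae hA.aeIff
      filter_upwards [h1] with z hz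
      exact hz))
  have h2 := Measure.ae_ae_of_ae_prod hB
  refine zero_or_one (P := () ∈ B) hA.1 ?_
  filter_upwards [h2] with p hp
  simpa [hm] using hp

/-- The product of two time-`t` maps is ergodic. -/
lemma pair_zero_one {Φ₀ Φ : ℝ → X → X} (hrel : RelErgodic μ Φ) (hΦ : Flow μ Φ)
    (hae : ∀ t, ∀ᵐ p ∂μ, Φ₀ t p = Φ t p) {t : ℝ} (ht : t ≠ 0) {A : Set (X × X)}
    (hA : InvMap (μ.prod μ) (fun z => (Φ₀ t z.1, Φ₀ t z.2)) A) :
    (μ.prod μ) A = 0 ∨ (μ.prod μ) A = 1 := by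
  have hS : IsAutomorphism μ (Φ t) := by
    refine ⟨hΦ.mp t, Φ (-t), hΦ.mp (-t), ?_, ?_⟩
    · filter_upwards [hΦ.add (-t) t, hΦ.zero] with q h1 h2
      rw [← h1, neg_add_cancel, h2]
    · filter_upwards [hΦ.add t (-t), hΦ.zero] with q h1 h2
      rw [← h1, add_neg_cancel, h2]
  have h1 : ∀ᵐ z ∂(μ.prod μ), Φ₀ t z.2 = Φ t z.2 :=
    Measure.quasiMeasurePreserving_snd.ae (hae t)
  obtain ⟨B, hB, hAB⟩ := rel_map hrel hΦ hae ht hS (A := A) (invMap_of_ae hA.1 (by
    filter_upwards [hA.aeIff, h1] with z h2 h3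
    rw [← h3]
    exact h2))
  have h4 := map_zero_one hrel hΦ (fun t => ae_of_all _ fun _ => rfl) ht hB
  have h5 : (μ.prod μ) A = μ B := by
    have h6 : A =ᵐ[μ.prod μ] Prod.snd ⁻¹' B := by
      filter_upwards [hAB] with z hz
      exact propext hz
    rw [measure_congr h6]
    exact (measurePreserving_snd (μ := μ) (ν := μ)).measure_preimage hB.1.nullMeasurableSet
  rwa [h5]

omit [MeasurableEq X] hprob in
/-- iterates of the time-`t` map -/
lemma iterate_ae {Φ : ℝ → X → X} (hΦ : Flow μ Φ) (t : ℝ) (n : ℕ) :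
    ∀ᵐ p ∂μ, Φ (n * t) p = (Φ t)^[n] p := by
  induction n with
  | zero =>
    filter_upwards [hΦ.zero] with p hp
    simp [hp]
  | succ n ih =>
    filter_upwards [ih, hΦ.add t (n * t)] with p h1 h2
    rw [Function.iterate_succ_apply', ← h1, ← h2]
    congr 1
    push_cast
    ring

/-- Mixing in the mean along every arithmetic progression of times. -/
theorem mean_mixing {Φ₀ Φ : ℝ → X → X} (hrel : RelErgodic μ Φ) (hΦ : Flow μ Φ)
    (hae : ∀ t, ∀ᵐ p ∂μ, Φ₀ t p = Φ t p) {t : ℝ} (ht : t ≠ 0) {A B : Set X}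
    (hA : MeasurableSet A) (hB : MeasurableSet B) :
    Tendsto (fun N : ℕ => (N : ℝ)⁻¹ * ∑ n ∈ Finset.range N,
      |μ.real (Φ₀ (n * t) ⁻¹' A ∩ B) - μ.real A * μ.real B|) atTop (𝓝 0) := by
  have hid : ∀ t, ∀ᵐ p ∂μ, Φ t p = Φ t p := fun t => ae_of_all _ fun _ => rfl
  have h1 : Ergodic (Φ t) μ :=
    ergodic_of_zero_one (hΦ.mp t) fun A hA => map_zero_one hrel hΦ hid ht hA
  have h2 : Ergodic (fun z : X × X => (Φ t z.1, Φ t z.2)) (μ.prod μ) :=
    ergodic_of_zero_one ((hΦ.mp t).prod (hΦ.mp t)) fun A hA => pair_zero_one hrel hΦ hid ht hA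
  have h3 := cesaro_abs h1 h2 hA hB
  have h4 : ∀ n : ℕ, μ.real (Φ₀ (n * t) ⁻¹' A ∩ B) = μ.real ((Φ t)^[n] ⁻¹' A ∩ B) := by
    intro n
    apply measureReal_congr
    filter_upwards [hae (n * t), iterate_ae hΦ t n] with p g1 g2
    apply propext
    show (Φ₀ (n * t) p ∈ A ∧ p ∈ B) ↔ ((Φ t)^[n] p ∈ A ∧ p ∈ B)
    rw [g1, g2]
  simp only [h4]
  exact h3

/-- Almost every orbit of every time-`t` map meets every open set of positive measure. -/
theorem visits {X : Type} [TopologicalSpace X] [SecondCountableTopology X] [MeasurableSpace X]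
    [OpensMeasurableSpace X] [MeasurableEq X] {μ : Measure X} [IsProbabilityMeasure μ]
    {Φ₀ Φ : ℝ → X → X} (hrel : RelErgodic μ Φ) (hΦ : Flow μ Φ)
    (hae : ∀ t, ∀ᵐ p ∂μ, Φ₀ t p = Φ t p) {t : ℝ} (ht : t ≠ 0) :
    ∀ᵐ p ∂μ, ∀ U : Set X, IsOpen U → μ U ≠ 0 → ∃ n : ℕ, Φ₀ (n * t) p ∈ U := by
  have hid : ∀ t, ∀ᵐ p ∂μ, Φ t p = Φ t p := fun t => ae_of_all _ fun _ => rfl
  set f := Φ t with hf
  have hfmp : MeasurePreserving f μ μ := hΦ.mp t
  have hag : ∀ᵐ p ∂μ, ∀ n : ℕ, Φ₀ (n * t) p = f^[n] p := by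
    refine ae_all_iff.2 fun n => ?_
    filter_upwards [hae (n * t), iterate_ae hΦ t n] with p g1 g2
    rw [g1, g2]
  have hvisit : ∀ U : Set X, IsOpen U → μ U ≠ 0 → ∀ᵐ p ∂μ, ∃ n : ℕ, f^[n] p ∈ U := by
    intro U hU hU0
    set E : Set X := ⋃ n : ℕ, f^[n] ⁻¹' U with hE
    have hEm : MeasurableSet E :=
      MeasurableSet.iUnion fun n => (hfmp.iterate n).measurable hU.measurableSet
    have hsub : f ⁻¹' E ⊆ E := by
      intro p hp
      simp only [hE, mem_preimage, mem_iUnion] at hp ⊢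
      obtain ⟨n, hn⟩ := hp
      exact ⟨n + 1, by rw [Function.iterate_succ_apply]; exact hn⟩
    have hinv : InvMap μ f E := by
      refine ⟨hEm, ?_⟩
      rw [symmDiff_of_le (show f ⁻¹' E ≤ E from hsub)]
      rw [measure_sdiff hsub (hfmp.measurable hEm).nullMeasurableSet (measure_ne_top _ _),
        hfmp.measure_preimage hEm.nullMeasurableSet, tsub_self]
    have hUE : U ⊆ E := fun p hp => mem_iUnion.2 ⟨0, hp⟩
    rcases map_zero_one hrel hΦ hid ht hinv with h0 | h1
    · exact absurd (measure_mono_null hUE h0) hU0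
    · rw [← prob_compl_eq_zero_iff hEm] at h1
      have h2 : ∀ᵐ p ∂μ, p ∈ E := ae_iff.2 h1
      filter_upwards [h2] with p hp
      simpa [hE] using hp
  have hall : ∀ᵐ p ∂μ, ∀ V ∈ TopologicalSpace.countableBasis X, μ V ≠ 0 →
      ∃ n : ℕ, f^[n] p ∈ V := by
    rw [ae_ball_iff (TopologicalSpace.countable_countableBasis X)]
    intro V hV
    by_cases h : μ V = 0
    · exact ae_of_all _ fun p hp => absurd h hp
    · filter_upwards [hvisit V (TopologicalSpace.isOpen_of_mem_countableBasis hV) h] with p hp _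
      exact hp
  filter_upwards [hag, hall] with p hp1 hp2 U hU hU0
  have hex : ∃ V ∈ TopologicalSpace.countableBasis X, V ⊆ U ∧ μ V ≠ 0 := by
    by_contra hcon
    push Not at hcon
    apply hU0
    have hUeq := (TopologicalSpace.isBasis_countableBasis X).open_eq_sUnion' hU
    rw [hUeq]
    refine (measure_sUnion_null_iff ((TopologicalSpace.countable_countableBasis X).mono
      fun V hV => hV.1)).2 ?_
    intro V hV
    exact hcon V hV.1 hV.2
  obtain ⟨V, hV, hVU, hV0⟩ := hex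
  obtain ⟨n, hn⟩ := hp2 V hV hV0
  exact ⟨n, by rw [hp1 n]; exact hVU hn⟩

end Vale.Agent.P099.H184Abs
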