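import Vale.Agent.P099.H184.Defs
import Mathlib.MeasureTheory.Function.Floor
import Mathlib.Dynamics.Ergodic.AddCircle
import Mathlib.Dynamics.Ergodic.MeasurePreserving
import Mathlib.MeasureTheory.Measure.Prod
import Mathlib.Tactic

open MeasureTheory Set Filter Topology

namespace Vale.Agent.P099.H184Abs

/-- `Ψ` is a measurable flow preserving `m` (almost everywhere sense). -/
structure Flow {Ω : Type} [MeasurableSpace Ω] (m : Measure Ω) (Ψ : ℝ → Ω → Ω) : Prop where
  meas : Measurable (fun z : ℝ × Ω => Ψ z.1 z.2)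
  mp : ∀ t, MeasurePreserving (Ψ t) m m
  add : ∀ s t, ∀ᵐ q ∂m, Ψ (s + t) q = Ψ s (Ψ t q)
  zero : ∀ᵐ q ∂m, Ψ 0 q = q

section Zpow

variable {Ω : Type}

/-- integer powers of a map with inverse `S'` -/
def sz (S S' : Ω → Ω) : ℤ → Ω → Ω
  | Int.ofNat n => S^[n]
  | Int.negSucc n => S'^[n + 1]

lemma sz_zero (S S' : Ω → Ω) (ω : Ω) : sz S S' 0 ω = ω := rfl

variable [MeasurableSpace Ω]

lemma sz_mp {m : Measure Ω} {S S' : Ω → Ω} (h : MeasurePreserving S m m)
    (h' : MeasurePreserving S' m m) (k : ℤ) : MeasurePreserving (sz S S' k) m m := by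
  cases k with
  | ofNat n => exact h.iterate n
  | negSucc n => exact h'.iterate (n + 1)

/-- all points of the two-sided orbit are good -/
def Hgood (S S' : Ω → Ω) (ω : Ω) : Prop :=
  ∀ w : List Bool, S' (S (w.foldr (fun b x => if b then S x else S' x) ω)) =
      w.foldr (fun b x => if b then S x else S' x) ω ∧
    S (S' (w.foldr (fun b x => if b then S x else S' x) ω)) =
      w.foldr (fun b x => if b then S x else S' x) ω

omit [MeasurableSpace Ω] in
lemma Hgood.left {S S' : Ω → Ω} {ω : Ω} (h : Hgood S S' ω) : Hgood S S' (S ω) := by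
  intro w
  have := h (w ++ [true])
  simpa [List.foldr_append] using this

omit [MeasurableSpace Ω] in
lemma Hgood.right {S S' : Ω → Ω} {ω : Ω} (h : Hgood S S' ω) : Hgood S S' (S' ω) := by
  intro w
  have := h (w ++ [false])
  simpa [List.foldr_append] using this

omit [MeasurableSpace Ω] in
lemma Hgood.sS {S S' : Ω → Ω} {ω : Ω} (h : Hgood S S' ω) : S' (S ω) = ω := (h []).1

omit [MeasurableSpace Ω] in
lemma Hgood.Ss {S S' : Ω → Ω} {ω : Ω} (h : Hgood S S' ω) : S (S' ω) = ω := (h []).2

lemma ae_hgood {m : Measure Ω} {S S' : Ω → Ω} (h : MeasurePreserving S m m)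
    (h' : MeasurePreserving S' m m) (h1 : ∀ᵐ q ∂m, S' (S q) = q) (h2 : ∀ᵐ q ∂m, S (S' q) = q) :
    ∀ᵐ q ∂m, Hgood S S' q := by
  have hmp : ∀ w : List Bool,
      MeasurePreserving (fun q => w.foldr (fun b x => if b then S x else S' x) q) m m := by
    intro w
    induction w with
    | nil => exact MeasurePreserving.id _
    | cons b w ih =>
      cases b with
      | true => exact h.comp ih
      | false => exact h'.comp ih
  have hall : ∀ w : List Bool, ∀ᵐ q ∂m, S' (S (w.foldr (fun b x => if b then S x else S' x) q)) =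
      w.foldr (fun b x => if b then S x else S' x) q ∧
    S (S' (w.foldr (fun b x => if b then S x else S' x) q)) =
      w.foldr (fun b x => if b then S x else S' x) q := by
    intro w
    exact (hmp w).quasiMeasurePreserving.ae (h1.and h2)
  exact ae_all_iff.2 hall

omit [MeasurableSpace Ω] in
lemma Hgood.iter {S S' : Ω → Ω} (n : ℕ) {ω : Ω} (h : Hgood S S' ω) : Hgood S S' (S^[n] ω) := by
  induction n with
  | zero => exact h
  | succ n ih => rw [Function.iterate_succ_apply']; exact ih.left

omit [MeasurableSpace Ω] in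
lemma Hgood.iter' {S S' : Ω → Ω} (n : ℕ) {ω : Ω} (h : Hgood S S' ω) : Hgood S S' (S'^[n] ω) := by
  induction n with
  | zero => exact h
  | succ n ih => rw [Function.iterate_succ_apply']; exact ih.right

omit [MeasurableSpace Ω] in
lemma Hgood.sz {S S' : Ω → Ω} (k : ℤ) {ω : Ω} (h : Hgood S S' ω) : Hgood S S' (sz S S' k ω) := by
  cases k with
  | ofNat n => exact h.iter n
  | negSucc n => exact h.iter' (n + 1)

omit [MeasurableSpace Ω] in
lemma Hgood.sz_succ {S S' : Ω → Ω} {ω : Ω} (h : Hgood S S' ω) (k : ℤ) :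
    Vale.Agent.P099.H184Abs.sz S S' (k + 1) ω = S (Vale.Agent.P099.H184Abs.sz S S' k ω) := by
  cases k with
  | ofNat n =>
    show S^[n + 1] ω = S (S^[n] ω)
    rw [Function.iterate_succ_apply']
  | negSucc n =>
    have h2 : Vale.Agent.P099.H184Abs.sz S S' (Int.negSucc n + 1) ω = S'^[n] ω := by
      cases n with
      | zero => rfl
      | succ n => rfl
    rw [h2]
    show _ = S (S'^[n + 1] ω)
    rw [Function.iterate_succ_apply', (h.iter' n).Ss]

omit [MeasurableSpace Ω] in
lemma Hgood.sz_pred {S S' : Ω → Ω} {ω : Ω} (h : Hgood S S' ω) (k : ℤ) :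
    Vale.Agent.P099.H184Abs.sz S S' (k - 1) ω = S' (Vale.Agent.P099.H184Abs.sz S S' k ω) := by
  have h1 := h.sz_succ (k - 1)
  rw [sub_add_cancel] at h1
  rw [h1, (h.sz (k - 1)).sS]

omit [MeasurableSpace Ω] in
lemma Hgood.sz_add {S S' : Ω → Ω} {ω : Ω} (h : Hgood S S' ω) (a b : ℤ) :
    Vale.Agent.P099.H184Abs.sz S S' (a + b) ω =
      Vale.Agent.P099.H184Abs.sz S S' a (Vale.Agent.P099.H184Abs.sz S S' b ω) := by
  induction a using Int.induction_on with
  | zero => rw [zero_add]; rfl
  | succ n ih =>
    rw [show (n : ℤ) + 1 + b = (n + b) + 1 by ring, h.sz_succ, ih, (h.sz b).sz_succ]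
  | pred n ih =>
    rw [show -(n : ℤ) - 1 + b = (-n + b) - 1 by ring, h.sz_pred, ih, (h.sz b).sz_pred]

lemma measurable_sz {S S' : Ω → Ω} (h : Measurable S) (h' : Measurable S') :
    Measurable (fun z : ℤ × Ω => sz S S' z.1 z.2) := by
  refine measurable_from_prod_countable_right ?_
  intro k
  cases k with
  | ofNat n => exact h.iterate n
  | negSucc n => exact h'.iterate (n + 1)

end Zpow

section Susp

variable (c : ℝ) [hc : Fact (0 < c)]

/-- the representative in `[0, c)` -/
noncomputable def rp (q : AddCircle c) : ℝ := (AddCircle.equivIco c 0 q : ℝ)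

/-- the number of turns -/
noncomputable def turns (q : AddCircle c) (s : ℝ) : ℤ := ⌊(rp c q + s) / c⌋

lemma rp_mem (q : AddCircle c) : 0 ≤ rp c q ∧ rp c q < c := by
  have h := (AddCircle.equivIco c 0 q).2
  have h2 : ((AddCircle.equivIco c 0 q : ℝ)) < 0 + c := h.2
  exact ⟨h.1, by rw [rp]; linarith⟩

lemma coe_rp (q : AddCircle c) : ((rp c q : ℝ) : AddCircle c) = q := AddCircle.coe_equivIco

lemma measurable_rp : Measurable (rp c) := by
  have h := (AddCircle.measurableEquivIco c 0).measurable
  exact measurable_subtype_coe.comp h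

lemma rp_add (q : AddCircle c) (s : ℝ) :
    rp c (q + (s : AddCircle c)) = rp c q + s - c * turns c q s := by
  have hc0 : 0 < c := hc.out
  set r : ℝ := rp c q + s - c * turns c q s with hr
  have h1 : 0 ≤ r ∧ r < c := by
    have h2 := Int.floor_le ((rp c q + s) / c)
    have h3 := Int.lt_floor_add_one ((rp c q + s) / c)
    rw [le_div_iff₀ hc0] at h2
    rw [div_lt_iff₀ hc0] at h3
    have h4 : (turns c q s : ℝ) = (⌊(rp c q + s) / c⌋ : ℤ) := rfl
    constructor
    · rw [hr, h4]; linarith
    · rw [hr, h4]; linarith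
  have h5 : (r : AddCircle c) = q + (s : AddCircle c) := by
    rw [hr, AddCircle.coe_sub, AddCircle.coe_add, coe_rp]
    have : ((c * (turns c q s : ℝ) : ℝ) : AddCircle c) = 0 := by
      rw [mul_comm, ← zsmul_eq_mul, AddCircle.coe_eq_zero_iff]
      exact ⟨turns c q s, rfl⟩
    rw [this, sub_zero]
  rw [← h5]
  exact AddCircle.equivIco_coe_of_mem (p := c) (a := 0) ⟨h1.1, by linarith [h1.2]⟩

lemma measurable_turns : Measurable (fun z : AddCircle c × ℝ => turns c z.1 z.2) := by
  unfold turns
  have h : Measurable (fun z : AddCircle c × ℝ => (rp c z.1 + z.2) / c) :=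
    (((measurable_rp c).comp measurable_fst).add measurable_snd).div_const c
  exact h.floor

lemma turns_zero (q : AddCircle c) : turns c q 0 = 0 := by
  have hc0 : 0 < c := hc.out
  rw [turns, add_zero, Int.floor_eq_zero_iff, Set.mem_Ico, le_div_iff₀ hc0, div_lt_one hc0, zero_mul]
  exact rp_mem c q

lemma turns_add (q : AddCircle c) (s t : ℝ) :
    turns c q (s + t) = turns c (q + (t : AddCircle c)) s + turns c q t := by
  have hc0 : 0 < c := hc.out
  rw [turns, turns, rp_add]
  have h : (rp c q + t - c * (turns c q t : ℝ) + s) / c =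
      (rp c q + (s + t)) / c - (turns c q t : ℝ) := by
    field_simp
    ring
  rw [h, Int.floor_sub_intCast]
  ring

variable {Ω : Type} [MeasurableSpace Ω]

/-- the suspension flow of `S` with roof `c` -/
noncomputable def susp (S S' : Ω → Ω) (s : ℝ) (z : AddCircle c × Ω) : AddCircle c × Ω :=
  (z.1 + (s : AddCircle c), sz S S' (turns c z.1 s) z.2)

/-- the probability measure of the suspension -/
noncomputable def sm (m : Measure Ω) : Measure (AddCircle c × Ω) :=
  (AddCircle.haarAddCircle : Measure (AddCircle c)).prod m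

lemma susp_pflow {m : Measure Ω} [IsProbabilityMeasure m] {S S' : Ω → Ω}
    (h : MeasurePreserving S m m) (h' : MeasurePreserving S' m m)
    (h1 : ∀ᵐ q ∂m, S' (S q) = q) (h2 : ∀ᵐ q ∂m, S (S' q) = q) :
    Flow (sm c m) (susp c S S') where
  meas := by
    have hsz := measurable_sz h.measurable h'.measurable
    have hq : Measurable (fun z : ℝ × (AddCircle c × Ω) => z.2.1) :=
      measurable_fst.comp measurable_snd
    have hs : Measurable (fun z : ℝ × (AddCircle c × Ω) => ((z.1 : ℝ) : AddCircle c)) :=
      (AddCircle.measurable_mk' (a := c)).comp measurable_fst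
    have ht : Measurable (fun z : ℝ × (AddCircle c × Ω) => turns c z.2.1 z.1) :=
      (measurable_turns c).comp (hq.prodMk measurable_fst)
    exact (hq.add hs).prodMk (hsz.comp (ht.prodMk (measurable_snd.comp measurable_snd)))
  mp := by
    intro s
    refine MeasurePreserving.skew_product (f := fun q : AddCircle c => q + (s : AddCircle c))
      (g := fun q ω => sz S S' (turns c q s) ω) ?_ ?_ ?_
    · exact measurePreserving_add_right _ _
    · exact (measurable_sz h.measurable h'.measurable).comp
        (((measurable_turns c).comp (measurable_fst.prodMk measurable_const)).prodMk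
          measurable_snd)
    · exact ae_of_all _ fun q => (sz_mp h h' _).map_eq
  add := by
    intro s t
    have hg : ∀ᵐ z ∂(sm c m), Hgood S S' z.2 :=
      Measure.quasiMeasurePreserving_snd.ae (ae_hgood h h' h1 h2)
    filter_upwards [hg] with z hz
    refine Prod.ext ?_ ?_
    · show z.1 + ((s + t : ℝ) : AddCircle c) = z.1 + (t : AddCircle c) + (s : AddCircle c)
      rw [AddCircle.coe_add]
      abel
    · show sz S S' (turns c z.1 (s + t)) z.2 = sz S S' (turns c (z.1 + (t : AddCircle c)) s)
        (sz S S' (turns c z.1 t) z.2)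
      rw [turns_add, hz.sz_add]
  zero := by
    refine ae_of_all _ fun z => Prod.ext ?_ ?_
    · show z.1 + ((0 : ℝ) : AddCircle c) = z.1
      simp
    · show sz S S' (turns c z.1 0) z.2 = z.2
      rw [turns_zero]; rfl

end Susp

end Vale.Agent.P099.H184Abs
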