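import Vale.Agent.P099.Defs

open MeasureTheory Set Filter

namespace Vale.Agent.P099

/-- `A` is measurable and invariant under the map `S`, up to a null set. -/
def InvMap {X : Type} [MeasurableSpace X] (m : Measure X) (S : X → X) (A : Set X) : Prop :=
  MeasurableSet A ∧ m (symmDiff (S ⁻¹' A) A) = 0

/-- `S` is an invertible measure preserving transformation of `(Ω, m)`: it has a measure preserving
inverse almost everywhere. -/
def IsAutomorphism {Ω : Type} [MeasurableSpace Ω] (m : Measure Ω) (S : Ω → Ω) : Prop :=
  MeasurePreserving S m m ∧ ∃ S' : Ω → Ω, MeasurePreserving S' m m ∧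
    (∀ᵐ q ∂m, S' (S q) = q) ∧ ∀ᵐ q ∂m, S (S' q) = q

end Vale.Agent.P099
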